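import Vale.Agent.P181.TL.Defs

set_option autoImplicit false

/-!
# P181, TL: `CoreN` from the blocks
-/

namespace Vale.Agent.P181.TL.H797

open Vale.Agent.P181.T4 (HW)
open Vale.Agent.P181.H280 (plethMult)
open Vale.Agent.P181.SZ
open Vale.Agent.P181.TL

/-- The balanced content. -/
def bal (a t : ℕ) : Fin a → ℕ := fun i => t / a + if (i : ℕ) < t % a then 1 else 0

lemma bal_le (a t : ℕ) (i j : Fin a) : bal a t i ≤ bal a t j + 1 := by
  unfold bal
  split_ifs <;> omega

lemma sum_bal {a : ℕ} (ha : 0 < a) (t : ℕ) : ∑ i, bal a t i = t := by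
  unfold bal
  rw [Finset.sum_add_distrib, Finset.sum_const, Finset.card_univ, Fintype.card_fin, smul_eq_mul]
  have h1 : ∑ i : Fin a, (if (i : ℕ) < t % a then 1 else 0) =
      ∑ i ∈ Finset.range a, if i < t % a then 1 else 0 :=
    Fin.sum_univ_eq_sum_range (fun i => if i < t % a then 1 else 0) a
  have h2 : (Finset.range a).filter (fun i => i < t % a) = Finset.range (t % a) := by
    ext i
    rw [Finset.mem_filter, Finset.mem_range, Finset.mem_range]
    have := Nat.mod_lt t ha
    omega
  rw [h1, ← Finset.sum_filter, h2, Finset.sum_const, Finset.card_range, smul_eq_mul, mul_one]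
  exact Nat.div_add_mod t a

/-- **(T7)** -/
theorem coreN (h1 : UpB) (h2 : BalB) (h6 : LowB) : CoreN := by
  intro a b k q m X lam hsum ha hq hm hX hA hs hw hb hnum
  have e1 := h1 a b k lam
  have e2 := h2 k a (fun i => lam i.succ.succ) (bal a (dn2 lam)) ha (bal_le a _) (sum_bal ha _)
  have e3 := h6 a b k q m X lam (bal a (dn2 lam)) hsum ha hq hm hX hA (fun i => rfl) hs hw hb
  calc plethMult a b (k + 2) lam
      ≤ (a + b).choose a * Module.finrank ℂ (HW k (Fin a) fun i => lam i.succ.succ) := e1
    _ ≤ (a + b).choose a * ((a + dn2 lam - 1).choose (dn2 lam) *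
        Module.finrank ℂ (KK k (Fin a) (bal a (dn2 lam)) fun i => lam i.succ.succ)) :=
          Nat.mul_le_mul_left _ e2
    _ = (a + b).choose a * (a + dn2 lam - 1).choose (dn2 lam) *
        Module.finrank ℂ (KK k (Fin a) (bal a (dn2 lam)) fun i => lam i.succ.succ) := by ring
    _ ≤ X ^ ((q - 1) * a) *
        Module.finrank ℂ (KK k (Fin a) (bal a (dn2 lam)) fun i => lam i.succ.succ) :=
          Nat.mul_le_mul_right _ hnum
    _ ≤ plethMult b a (k + 2) lam := e3

end Vale.Agent.P181.TL.H797
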