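import Vale.Agent.P181.TL.DefsP
import Vale.Agent.P181.TL.H797.CoreN
import Vale.Agent.P181.H502.Dec

set_option autoImplicit false

/-!
# P181, TL+: `CoreP` from the blocks
-/

namespace Vale.Agent.P181.TL.H797

open Vale.Agent.P181.T4 (HW)
open Vale.Agent.P181.H280 (plethMult)
open Vale.Agent.P181.SZ
open Vale.Agent.P181.TL

/-- The numbers behind `CoreP`. -/
lemma numP {a q m t A w B L l0 l1 l2 am X : ℕ} (ha : 3 ≤ a) (hq5 : 5 ≤ q)
    (ht16 : 16 * t ≤ a ^ 2 * q) (hm : 8 * q ≤ m) (haq : 40 * q ≤ a) (hA : A * (a * q) ≤ t)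
    (ham : am * m ≤ a) (hX : 2 * m * q * X ≤ A)
    (hL : L = l2 + 2 * q ^ 2 * a + 2 * m * q ^ 2 * X * a + q ^ 2 * a * am + 2 * a)
    (hl1 : L ≤ l1) (hl1' : l1 ≤ L + 2 * a)
    (hl0 : l1 + 3 * q * a ^ 2 + L + 2 * t + 5 * a ≤ l0)
    (hw : w = l1 + t) (hB : a * B = l0 + l1 + t) :
    2 * (A + q + 2 * m * q * X + q * am + q + 1) ≤ a ∧
    q * a * (A + q + 2 * m * q * X + q * am + q) + l2 + 2 * a ≤ w ∧
    3 * q * a + 3 * (w / a) + 3 ≤ B := by
  have ha0 : 0 < a := by omega
  refine ⟨?_, ?_, ?_⟩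
  · have h1 : 16 * A ≤ a := by
      have h2 : (16 * A) * (a * q) ≤ a * (a * q) := by nlinarith
      exact Nat.le_of_mul_le_mul_right h2 (by positivity)
    have h3 : 8 * (q * am) ≤ a := by
      calc 8 * (q * am) = am * (8 * q) := by ring
        _ ≤ am * m := Nat.mul_le_mul_left _ hm
        _ ≤ a := ham
    omega
  · have h1 : q * a * (A + q + 2 * m * q * X + q * am + q) + l2 + 2 * a =
        A * (a * q) + L := by
      rw [hL]
      ring
    rw [h1, hw]
    omega
  · have h1 : a * (3 * q * a + 3 * (w / a) + 3) ≤ a * B := by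
      have h2 : a * (w / a) ≤ w := Nat.mul_div_le w a
      calc a * (3 * q * a + 3 * (w / a) + 3) = 3 * q * a ^ 2 + 3 * (a * (w / a)) + 3 * a := by ring
        _ ≤ 3 * q * a ^ 2 + 3 * w + 3 * a := by omega
        _ ≤ a * B := by
          rw [hB, hw]
          omega
    exact Nat.le_of_mul_le_mul_left h1 ha0

/-- **(E+)** -/
theorem coreP (h1 : UpB) (h2 : BalB) (h6 : LowP) (hG : GrowP) : CoreP := by
  intro a b k q m X L lam hsum ha hq hm haq hX1 hXA hgr hL hL1 h0
  have ha0 : 0 < a := by omega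
  have hq5 : 5 ≤ q := by rw [hq]; exact Nat.le_add_right _ _
  set t := dn2 lam with htdef
  have hg := hG a b q t X ha0 hq5 hX1 hgr
  -- the shift
  obtain ⟨β, hβ1, hβ2⟩ : ∃ β, L + 2 * a * β ≤ lam 1 ∧ lam 1 ≤ L + 2 * a * β + 2 * a := by
    refine ⟨(lam 1 - L) / (2 * a), ?_, ?_⟩
    · have := Nat.mul_div_le (lam 1 - L) (2 * a)
      omega
    · have := Nat.lt_mul_div_succ (lam 1 - L) (show 0 < 2 * a by omega)
      rw [Nat.mul_succ] at this
      omega
  have hs2 : ∀ f : Fin (k + 3) → ℕ, ∑ i, f i = f 0 + (f 1 + dn2 f) := by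
    intro f
    rw [Fin.sum_univ_succ, Fin.sum_univ_succ]
    rfl
  have htot : lam 0 + (lam 1 + t) = a * b := by rw [← hsum, hs2]
  set lam' : Fin (k + 3) → ℕ := fun i => if (i : ℕ) < 2 then lam i - 2 * a * β else lam i
    with hlam'
  have e0 : lam' 0 = lam 0 - 2 * a * β := by
    simp [hlam']
  have e1 : lam' 1 = lam 1 - 2 * a * β := by
    simp [hlam']
  have etail : (fun i : Fin (k + 1) => lam' i.succ.succ) = fun i => lam i.succ.succ := by
    funext i
    simp only [hlam', Fin.val_succ]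
    rw [if_neg (by omega)]
  have e2 : lam' 2 = lam 2 := congrFun etail 0
  have ed : dn2 lam' = t := by
    rw [htdef, dn2, dn2]
    exact Finset.sum_congr rfl fun i _ => congrFun etail i
  have hge0 : 2 * a * β ≤ lam 0 := by omega
  have h4b : 4 * β ≤ b := by
    have : a * (4 * β) ≤ a * b := by
      calc a * (4 * β) = 2 * a * β + 2 * a * β := by ring
        _ ≤ a * b := by omega
    exact Nat.le_of_mul_le_mul_left this ha0
  have hB : a * (b - 4 * β) = lam' 0 + lam' 1 + t := by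
    rw [Nat.mul_sub, ← htot, e0, e1]
    have : a * (4 * β) = 2 * a * β + 2 * a * β := by ring
    omega
  have hsum' : ∑ i, lam' i = a * (b - 4 * β) := by
    rw [hs2, ed, hB]
    ring
  have hw : ∑ i, tl lam' i = lam' 1 + t := by
    rw [Fin.sum_univ_succ, ← ed]
    rfl
  have ht16 : 16 * t ≤ a ^ 2 * q := by
    have h5 := Nat.lt_mul_div_succ (16 * t) (show 0 < a ^ 2 by positivity)
    have h6 : 16 * t / a ^ 2 + 1 ≤ q := by
      rw [hq]
      generalize 16 * t / a ^ 2 = y
      omega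
    calc 16 * t ≤ a ^ 2 * (16 * t / a ^ 2 + 1) := h5.le
      _ ≤ a ^ 2 * q := Nat.mul_le_mul_left _ h6
  have hA : t / a / q * (a * q) ≤ t := by
    rw [Nat.div_div_eq_div_mul]
    exact Nat.div_mul_le_self t (a * q)
  obtain ⟨n1, n2, n3⟩ := numP (B := b - 4 * β) (l0 := lam' 0) (l1 := lam' 1) (l2 := lam' 2)
    (w := ∑ i, tl lam' i) (am := a / m) (L := L) ha hq5 ht16 hm haq hA (Nat.div_mul_le_self a m)
    hXA (by rw [e2]; exact hL) (by omega) (by omega) (by omega) hw hB
  have ht' : (∑ i : Fin (k + 1), lam' i.succ.succ) = t := ed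
  have e6 := h6 a (b - 4 * β) k q m X lam' (bal a t) hsum' ha0
    (by omega) (by omega) hX1 (by rw [ht']; exact hXA)
    (fun i => by rw [ht']; rfl) (by rw [ht']; exact n1) (by rw [ht']; exact n2) n3
  rw [etail] at e6
  -- peeling
  have hpos2 := Vale.Agent.P181.H502.pos_E_mul (m := k + 3) (j := 2) (a := a) (by omega)
    (by omega) β
  have e7 := Vale.Agent.P181.FR.plethMult_mul (b := b - 4 * β) (lam := lam') hpos2
  have e8 : b - 4 * β + 2 * 2 * β = b := by omega
  have e9 : lam' + (2 * a * β) • Vale.Agent.P181.FR.om (k + 3) 2 = lam := by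
    funext i
    rw [Pi.add_apply, Pi.smul_apply, smul_eq_mul, Vale.Agent.P181.FR.om]
    by_cases hi : (i : ℕ) < 2
    · rw [if_pos hi, mul_one]
      have h7 : lam' i = lam i - 2 * a * β := by rw [hlam']; exact if_pos hi
      have h8 : 2 * a * β ≤ lam i := by
        rcases Nat.lt_or_ge (i : ℕ) 1 with h | h
        · have : i = 0 := Fin.ext (by rw [Fin.val_zero]; omega)
          rw [this]
          exact hge0
        · have : i = 1 := Fin.ext (by rw [Fin.val_one]; omega)
          rw [this]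
          omega
      omega
    · rw [if_neg hi, mul_zero, add_zero, hlam']
      exact if_neg hi
  rw [e8, e9] at e7
  have u1 := h1 a b (k + 1) lam
  have u2 := h2 (k + 1) a (fun i => lam i.succ.succ) (bal a t) ha0 (bal_le a _) (sum_bal ha0 _)
  calc plethMult a b (k + 3) lam
      ≤ (a + b).choose a * Module.finrank ℂ (HW (k + 1) (Fin a) fun i => lam i.succ.succ) := u1
    _ ≤ (a + b).choose a * ((a + t - 1).choose t *
        Module.finrank ℂ (KK (k + 1) (Fin a) (bal a t) fun i => lam i.succ.succ)) :=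
          Nat.mul_le_mul_left _ u2
    _ = (a + b).choose a * (a + t - 1).choose t *
        Module.finrank ℂ (KK (k + 1) (Fin a) (bal a t) fun i => lam i.succ.succ) := by ring
    _ ≤ X ^ ((q - 1) * a) *
        Module.finrank ℂ (KK (k + 1) (Fin a) (bal a t) fun i => lam i.succ.succ) :=
          Nat.mul_le_mul_right _ hg
    _ ≤ plethMult (b - 4 * β) a (k + 3) lam' := e6
    _ ≤ plethMult b a (k + 3) lam := e7

end Vale.Agent.P181.TL.H797
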