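import Vale.Agent.P181.TL.H797.Final
import Vale.Agent.P181.TL.H797.CoreP
import Vale.Agent.P181.TL.H248.LiftC
import Vale.Agent.P181.TL.H307.KeyP
import Vale.Agent.P181.TL.H307.LowP
import Vale.Agent.P181.TL.H968.GrowP
import Vale.Agent.P181.TL.H976.TwoA
import Vale.Agent.P181.TL.H976.Plug
import Vale.Agent.P181.TL.H410.T9P
import Vale.Agent.P181.TL.H850.JoinP
import Vale.Agent.P181.H467.NT.All
import Vale.Agent.P181.PLX.Main

set_option autoImplicit false

/-!
# P181, TL: the closed theorems of the line TL+
-/

namespace Vale.Agent.P181.TL.H797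

open Vale.Agent.P181.TL

/-- Lower bound (C), no hypothesis. -/
theorem lowP_closed : LowP :=
  H307.lowP H353.refB H248.liftC H307.keyP Vale.Agent.P181.SZR2.lowerS Vale.Agent.P181.SZT0.transS

/-- **(C)** without hypotheses. -/
theorem coreP_closed : CoreP := coreP H214.upB H639.balB lowP_closed H968.growP

/-- **(T8+)** -/
theorem twoLongA_closed : TwoLongA := H976.twoLongA coreP_closed H976.nearLin H976.fewTwo

theorem plh_closed : H410.PLH := by
  obtain ⟨C, c, h⟩ := PLX.poly_result.{0}
  exact ⟨C, c, fun a b hab => (h a b hab).2⟩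

theorem fewH_closed : H410.FewH := H976.fewTwo

/-- **(T9+)** -/
theorem twoLongPA_closed : TwoLongPA := H410.twoLongPA_of coreP_closed plh_closed fewH_closed

/-- The union with the linear theorem, linear window. -/
theorem tlp8_closed : H850.TLP8 := H850.tlp8 twoLongA_closed Vale.Agent.P181.H467.NT.linS

/-- The union with the linear theorem, polylog window. -/
theorem tluP_closed : H850.TLUP := H850.tluP twoLongPA_closed Vale.Agent.P181.H467.NT.linS

end Vale.Agent.P181.TL.H797
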