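import Vale.Agent.P181.TL.H797.CoreE
import Vale.Agent.P181.TL.H214.UpB
import Vale.Agent.P181.TL.H639.BalB
import Vale.Agent.P181.TL.H353.Ref
import Vale.Agent.P181.TL.H248.T4
import Vale.Agent.P181.TL.H908.KeyB
import Vale.Agent.P181.TL.H908.SizeB
import Vale.Agent.P181.TL.H307.LowB
import Vale.Agent.P181.TL.H516.GrowB
import Vale.Agent.P181.SZR2.Lower
import Vale.Agent.P181.SZT0.Tr

set_option autoImplicit false

/-!
# P181, TL: the closed core
-/

namespace Vale.Agent.P181.TL.H797

open Vale.Agent.P181.TL

theorem lowB_closed : LowB :=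
  H307.lowB H353.refB H248.liftB H908.keyB H908.sizeB Vale.Agent.P181.SZR2.lowerS
    Vale.Agent.P181.SZT0.transS

/-- **(E)** without hypotheses. -/
theorem coreE_closed : CoreE := coreE H214.upB H639.balB lowB_closed H516.grow

/-- **(T7)** without hypotheses. -/
theorem coreN_closed : CoreN := coreN H214.upB H639.balB lowB_closed

end Vale.Agent.P181.TL.H797
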